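import Crest.Agent.Lib.BK.Basic

/-!
# L4 (row 56): the numerics of route L.
-/

set_option autoImplicit false

namespace Crest.Agent.BK

open Finset Crest.CombinatoricsR.HypergraphCube

/-- `σ log (2/σ) ≤ log 2` for `0 < σ ≤ 1/2`. -/
lemma numL_kappa {σ : ℝ} (h0 : 0 < σ) (h1 : σ ≤ 1 / 2) : σ * Real.log (2 / σ) ≤ Real.log 2 := by
  have hl2 : (0.6931471803 : ℝ) < Real.log 2 := Real.log_two_gt_d9
  have h2 : (2 : ℝ) / σ = 4 * (1 / (2 * σ)) := by field_simp; norm_num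
  have h3 : Real.log (2 / σ) = 2 * Real.log 2 + Real.log (1 / (2 * σ)) := by
    rw [h2, Real.log_mul (by norm_num) (by positivity)]
    congr 1
    rw [show (4 : ℝ) = 2 ^ 2 by norm_num, Real.log_pow]
    norm_num
  have h4 : Real.log (1 / (2 * σ)) ≤ 1 / (2 * σ) - 1 :=
    Real.log_le_sub_one_of_pos (by positivity)
  have h5 : σ * (1 / (2 * σ)) = 1 / 2 := by field_simp
  rw [h3]
  have h6 : σ * (2 * Real.log 2 + Real.log (1 / (2 * σ))) ≤
      σ * (2 * Real.log 2 + (1 / (2 * σ) - 1)) :=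
    mul_le_mul_of_nonneg_left (by linarith) h0.le
  have h7 : σ * (2 * Real.log 2 + (1 / (2 * σ) - 1)) = 2 * σ * Real.log 2 + 1 / 2 - σ := by
    rw [mul_add, mul_sub, h5]; ring
  nlinarith

/-- `log (2/σ) ≥ 1` for `σ ≤ 1/2`. -/
lemma numL_kappa_ge {σ : ℝ} (h0 : 0 < σ) (h1 : σ ≤ 1 / 2) : 1 ≤ Real.log (2 / σ) := by
  have hl2 : (0.6931471803 : ℝ) < Real.log 2 := Real.log_two_gt_d9
  have h2 : (4 : ℝ) ≤ 2 / σ := by
    rw [le_div_iff₀ h0]; linarith
  have h3 : Real.log 4 ≤ Real.log (2 / σ) := Real.log_le_log (by norm_num) h2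
  have h4 : Real.log 4 = 2 * Real.log 2 := by
    rw [show (4 : ℝ) = 2 ^ 2 by norm_num, Real.log_pow]
    norm_num
  linarith

/-- `L ^ α ≤ 57 e^{3L/16}` for `0 < α ≤ 2`, `0 < L`. -/
lemma numL_rpow_le {L α : ℝ} (hL : 0 < L) (hα0 : 0 < α) (hα : α ≤ 2) :
    L ^ α ≤ 57 * Real.exp (3 * L / 16) := by
  have h1 : 1 ≤ Real.exp (3 * L / 16) := Real.one_le_exp (by positivity)
  rcases le_total L 1 with h | h
  · have : L ^ α ≤ 1 := Real.rpow_le_one hL.le h hα0.le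
    linarith
  · have h2 : L ^ α ≤ L ^ (2 : ℝ) := Real.rpow_le_rpow_of_exponent_le h hα
    have h3 := Real.quadratic_le_exp_of_nonneg (x := 3 * L / 16) (by positivity)
    have h4 : L ^ (2 : ℝ) = L ^ 2 := by norm_cast
    rw [h4] at h2
    nlinarith

/-- The first two terms. -/
lemma numL_first {n d s : ℕ} {σ : ℝ} (hn : 2 ≤ n) (hs : s = Nat.sqrt n) (h0 : 0 < σ)
    (h1 : σ ≤ 1 / 2) (hd : d = ⌊Real.log n / (16 * Real.log (2 / σ))⌋₊) {α : ℝ}
    (hα0 : 0 < α) (hα : α ≤ 2) :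
    σ ^ 2 * (2 * (2 / σ) ^ d / Real.sqrt s + 2 / s) ≤ 176 / Real.log n ^ α := by
  set L := Real.log n with hLdef
  have hnR : (2 : ℝ) ≤ n := by exact_mod_cast hn
  have hL : 0 < L := Real.log_pos (by linarith)
  have hLα : 0 < L ^ α := Real.rpow_pos_of_pos hL α
  have hκ := numL_kappa_ge h0 h1
  set κ := Real.log (2 / σ) with hκdef
  have hκ0 : 0 < κ := by linarith
  -- `Γ ^ d ≤ e^{L/16}`
  have hΓpos : 0 < (2 : ℝ) / σ := by positivity
  have hΓ : ((2 : ℝ) / σ) ^ d ≤ Real.exp (L / 16) := by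
    have h2 : ((2 : ℝ) / σ) ^ d = Real.exp (d * κ) := by
      rw [Real.exp_nat_mul, Real.exp_log hΓpos]
    rw [h2]
    apply Real.exp_le_exp.2
    have h3 : (d : ℝ) ≤ L / (16 * κ) := by
      rw [hd]
      exact Nat.floor_le (by positivity)
    calc (d : ℝ) * κ ≤ L / (16 * κ) * κ := mul_le_mul_of_nonneg_right h3 hκ0.le
      _ = L / 16 := by field_simp
  -- `s` is large
  have hs1 : 1 ≤ s := by
    rw [hs]
    exact Nat.sqrt_pos.2 (by omega)
  have hsR : (1 : ℝ) ≤ s := by exact_mod_cast hs1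
  have hs2 : (n : ℝ) ≤ 4 * (s : ℝ) ^ 2 := by
    have h2 : n < (s + 1) ^ 2 := by
      rw [hs]
      exact Nat.lt_succ_sqrt' n
    have h3 : (s + 1) ^ 2 ≤ 4 * s ^ 2 := by nlinarith
    have h4 : n ≤ 4 * s ^ 2 := by omega
    exact_mod_cast h4
  have hnexp : (n : ℝ) = Real.exp L := (Real.exp_log (by linarith)).symm
  set y := Real.exp (-(L / 4)) with hy
  have hy0 : 0 < y := Real.exp_pos _
  have hy2 : y ^ 2 * Real.exp (L / 2) = 1 := by
    rw [hy, ← Real.exp_nat_mul, ← Real.exp_add]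
    simp only [Nat.cast_ofNat]
    rw [show (2 : ℝ) * -(L / 4) + L / 2 = 0 by ring, Real.exp_zero]
  have hexp2 : Real.exp (L / 2) ^ 2 = Real.exp L := by
    rw [← Real.exp_nat_mul]
    congr 1
    push_cast
    ring
  have hs3 : Real.exp (L / 2) ≤ 2 * s := by
    have h2 : Real.exp (L / 2) ^ 2 ≤ (2 * (s : ℝ)) ^ 2 := by
      rw [hexp2, ← hnexp]
      nlinarith
    exact (pow_le_pow_iff_left₀ (Real.exp_pos _).le (by positivity) (by norm_num)).1 h2
  have hs4 : 1 / (s : ℝ) ≤ 2 * y ^ 2 := by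
    rw [div_le_iff₀ (by linarith)]
    have h2 : y ^ 2 * Real.exp (L / 2) ≤ y ^ 2 * (2 * s) :=
      mul_le_mul_of_nonneg_left hs3 (by positivity)
    nlinarith
  have hss : Real.sqrt s ^ 2 = s := Real.sq_sqrt (by positivity)
  have hsqrt0 : 0 < Real.sqrt s := Real.sqrt_pos.2 (by linarith)
  have hs5 : 1 / Real.sqrt s ≤ (3 / 2) * y := by
    have h2 : (1 / Real.sqrt s) ^ 2 ≤ ((3 / 2) * y) ^ 2 := by
      rw [div_pow, hss, one_pow]
      nlinarith [sq_nonneg y]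
    exact (pow_le_pow_iff_left₀ (by positivity) (by positivity) (by norm_num)).1 h2
  -- the bound in terms of exponentials
  set z := Real.exp (-(3 * L / 16)) with hz
  have hz0 : 0 < z := Real.exp_pos _
  have hzz : z * Real.exp (3 * L / 16) = 1 := by
    rw [hz, ← Real.exp_add]
    simp
  have hA1 : 2 * (2 / σ) ^ d / Real.sqrt s ≤ 3 * z := by
    have h2 : Real.exp (L / 16) * y = z := by
      rw [hy, hz, ← Real.exp_add]
      congr 1
      ring
    calc 2 * (2 / σ) ^ d / Real.sqrt s = 2 * (2 / σ) ^ d * (1 / Real.sqrt s) := by ring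
      _ ≤ 2 * Real.exp (L / 16) * ((3 / 2) * y) := by gcongr
      _ = 3 * (Real.exp (L / 16) * y) := by ring
      _ = 3 * z := by rw [h2]
  have hA2 : 2 / (s : ℝ) ≤ 4 * z := by
    have h2 : y ^ 2 ≤ z := by
      rw [hy, hz, ← Real.exp_nat_mul]
      apply Real.exp_le_exp.2
      push_cast
      nlinarith
    calc 2 / (s : ℝ) = 2 * (1 / s) := by ring
      _ ≤ 2 * (2 * y ^ 2) := by gcongr
      _ ≤ 4 * z := by linarith
  have hσ2 : σ ^ 2 ≤ 1 / 4 := by nlinarith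
  have hA : σ ^ 2 * (2 * (2 / σ) ^ d / Real.sqrt s + 2 / s) ≤ (1 / 4) * (7 * z) := by
    have h2 : 0 ≤ 2 * (2 / σ) ^ d / Real.sqrt s + 2 / (s : ℝ) := by positivity
    calc σ ^ 2 * (2 * (2 / σ) ^ d / Real.sqrt s + 2 / s)
        ≤ (1 / 4) * (2 * (2 / σ) ^ d / Real.sqrt s + 2 / s) :=
          mul_le_mul_of_nonneg_right hσ2 h2
      _ ≤ (1 / 4) * (7 * z) := by
          apply mul_le_mul_of_nonneg_left _ (by norm_num)
          linarith
  refine hA.trans ?_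
  rw [le_div_iff₀ hLα]
  have h3 := numL_rpow_le hL hα0 hα
  have h4 : z * L ^ α ≤ z * (57 * Real.exp (3 * L / 16)) :=
    mul_le_mul_of_nonneg_left h3 hz0.le
  have h5 : z * (57 * Real.exp (3 * L / 16)) = 57 := by
    calc z * (57 * Real.exp (3 * L / 16)) = 57 * (z * Real.exp (3 * L / 16)) := by ring
      _ = 57 := by rw [hzz]; ring
  nlinarith

/-- The third term. -/
lemma numL_third {n d : ℕ} {σ : ℝ} (hn : 2 ≤ n) (h0 : 0 < σ)
    (h1 : σ ≤ 1 / 2) (hd : d = ⌊Real.log n / (16 * Real.log (2 / σ))⌋₊) {α : ℝ}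
    (hα0 : 0 < α) (hα : α ≤ 2) :
    σ ^ 2 * (1 / ((d : ℝ) + 1) ^ α) ≤ 124 / Real.log n ^ α := by
  set L := Real.log n with hLdef
  have hnR : (2 : ℝ) ≤ n := by exact_mod_cast hn
  have hL : 0 < L := Real.log_pos (by linarith)
  have hLα : 0 < L ^ α := Real.rpow_pos_of_pos hL α
  have hκ := numL_kappa_ge h0 h1
  have hκσ := numL_kappa h0 h1
  set κ := Real.log (2 / σ) with hκdef
  have hκ0 : 0 < κ := by linarith
  have hl2 : Real.log 2 < 0.6931471808 := Real.log_two_lt_d9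
  have hl2' : (0 : ℝ) < Real.log 2 := Real.log_pos (by norm_num)
  have hD : L / (16 * κ) ≤ (d : ℝ) + 1 := by
    rw [hd]
    exact (Nat.lt_floor_add_one _).le
  have hpos : 0 < L / (16 * κ) := by positivity
  have hD2 : (L / (16 * κ)) ^ α ≤ ((d : ℝ) + 1) ^ α :=
    Real.rpow_le_rpow hpos.le hD hα0.le
  have hD3 : (L / (16 * κ)) ^ α = L ^ α / (16 * κ) ^ α :=
    Real.div_rpow hL.le (by positivity) α
  have h16 : 1 ≤ 16 * κ := by linarith
  have h162 : (16 * κ) ^ α ≤ (16 * κ) ^ 2 := by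
    have : (16 * κ) ^ α ≤ (16 * κ) ^ (2 : ℝ) := Real.rpow_le_rpow_of_exponent_le h16 hα
    have h4 : (16 * κ) ^ (2 : ℝ) = (16 * κ) ^ 2 := by norm_cast
    rwa [h4] at this
  have hkey : σ ^ 2 * (16 * κ) ^ 2 ≤ 124 := by
    have h3 : (σ * κ) ^ 2 ≤ Real.log 2 ^ 2 :=
      pow_le_pow_left₀ (by positivity) hκσ 2
    have h4 : Real.log 2 ^ 2 ≤ 0.6931471808 ^ 2 := pow_le_pow_left₀ hl2'.le hl2.le 2
    have h5 : σ ^ 2 * (16 * κ) ^ 2 = 256 * (σ * κ) ^ 2 := by ring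
    rw [h5]
    norm_num at h4 ⊢
    linarith
  have hα16 : 0 < (16 * κ) ^ α := by positivity
  have hdpos : 0 < ((d : ℝ) + 1) ^ α := by positivity
  have hfinal : L ^ α ≤ ((d : ℝ) + 1) ^ α * (16 * κ) ^ α := by
    rw [hD3, div_le_iff₀ hα16] at hD2
    exact hD2
  rw [mul_one_div, div_le_div_iff₀ hdpos hLα]
  calc σ ^ 2 * L ^ α ≤ σ ^ 2 * (((d : ℝ) + 1) ^ α * (16 * κ) ^ α) := by gcongr
    _ ≤ σ ^ 2 * (((d : ℝ) + 1) ^ α * (16 * κ) ^ 2) := by gcongr
    _ = (σ ^ 2 * (16 * κ) ^ 2) * ((d : ℝ) + 1) ^ α := by ring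
    _ ≤ 124 * ((d : ℝ) + 1) ^ α := by gcongr

section Hyper
variable {n r : ℕ} {p : ℝ}

/-- L4: numerics, with `s = Nat.sqrt n` and `d = ⌊log n / (16 log (2/σ))⌋₊`: `influence_L` from the
statement of `master_L` (for this `f`; use as `influence_L_of_master hp0 hp1 hr hrn (fun s d hs0 hs =>
master_L hp0 hp1 hr hf hs0 hs d)`). -/
theorem influence_L_of_master (hp0 : 0 < p) (hp1 : p < 1) (hr : 2 ≤ r) (hrn : r ≤ n)
    {f : (HyperedgeSlot n r → Bool) → Bool}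
    (master_L' : ∀ (s d : ℕ), 0 < s → s * s ≤ n → ex p (bv f) * (1 - ex p (bv f))
      ≤ sig p ^ 2 * totInf p f * r *
        (2 * (2 / sig p) ^ d / Real.sqrt s + 2 / s
          + 1 / ((d : ℝ) + 1) ^ ((r : ℝ) / ((r : ℝ) - 1)))) :
    ex p (bv f) * (1 - ex p (bv f))
      ≤ (300 * r : ℝ) / Real.log n ^ ((r : ℝ) / ((r : ℝ) - 1)) * totInf p f := by
  have hn : 2 ≤ n := hr.trans hrn
  have hσ0 := sig_pos hp0 hp1
  have hσ1 := sig_le hp0 hp1
  set σ := sig p with hσ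
  set α := (r : ℝ) / ((r : ℝ) - 1) with hαdef
  have hrR : (2 : ℝ) ≤ r := by exact_mod_cast hr
  have hα0 : 0 < α := by
    rw [hαdef]
    apply div_pos <;> linarith
  have hα2 : α ≤ 2 := by
    rw [hαdef, div_le_iff₀ (by linarith)]
    linarith
  set s := Nat.sqrt n with hs
  have hs0 : 0 < s := Nat.sqrt_pos.2 (by omega)
  have hss : s * s ≤ n := Nat.sqrt_le n
  set d := ⌊Real.log n / (16 * Real.log (2 / σ))⌋₊ with hd
  have hM := master_L' s d hs0 hss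
  have h1 := numL_first (n := n) (d := d) (s := s) hn hs hσ0 hσ1 hd hα0 hα2
  have h3 := numL_third (n := n) (d := d) hn hσ0 hσ1 hd hα0 hα2
  have hI : 0 ≤ totInf p f := Finset.sum_nonneg fun u _ => by
    have h := ex_mono hp0 hp1 (g := fun _ : HyperedgeSlot n r → Bool => (0 : ℝ))
      (h := fun x => ind (f (Function.update x u true) ≠ f (Function.update x u false)))
      (fun _ => ind_nonneg _)
    rwa [ex_const hp0 hp1] at h
  refine hM.trans ?_
  have hsum : σ ^ 2 * (2 * (2 / σ) ^ d / Real.sqrt s + 2 / s + 1 / ((d : ℝ) + 1) ^ α) ≤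
      300 / Real.log n ^ α := by
    have h4 : (300 : ℝ) / Real.log n ^ α = 176 / Real.log n ^ α + 124 / Real.log n ^ α := by ring
    rw [h4, mul_add]
    exact add_le_add h1 h3
  calc σ ^ 2 * totInf p f * r * (2 * (2 / σ) ^ d / Real.sqrt s + 2 / s + 1 / ((d : ℝ) + 1) ^ α)
      = (totInf p f * r) * (σ ^ 2 * (2 * (2 / σ) ^ d / Real.sqrt s + 2 / s + 1 / ((d : ℝ) + 1) ^ α)) := by
        ring
    _ ≤ (totInf p f * r) * (300 / Real.log n ^ α) := by
        apply mul_le_mul_of_nonneg_left hsum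
        positivity
    _ = (300 * r : ℝ) / Real.log n ^ α * totInf p f := by ring

end Hyper

end Crest.Agent.BK
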