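/-
Row 56, route L, task L1 (see note 106): the fibre inequality.
-/
import Crest.Agent.Lib.BK.Fiber

set_option autoImplicit false
set_option linter.unusedSectionVars false
set_option linter.unusedSimpArgs false
set_option linter.unusedVariables false

namespace Crest.Agent.BK

open Finset

section Row
variable {ι : Type*} [Fintype ι] [DecidableEq ι] {p : ℝ}

/-- Nonempty subsets of `S`. -/
def neFam (S : Finset ι) : Finset (Finset ι) := S.powerset.filter Finset.Nonempty

/-- Nonempty subsets of `S` of size at most `d`. -/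
def lowFam (S : Finset ι) (d : ℕ) : Finset (Finset ι) :=
  S.powerset.filter (fun U => U.Nonempty ∧ U.card ≤ d)

lemma chi_insert (p : ℝ) {U : Finset ι} {u : ι} (hu : u ∉ U) (x : ι → Bool) :
    chi p (insert u U) x = chi1 p (x u) * chi p U x := by
  unfold chi; exact Finset.prod_insert hu

lemma ex_chi_sq (hp0 : 0 < p) (hp1 : p < 1) (U : Finset ι) :
    ex p (fun x => chi p U x ^ 2) = 1 := by
  induction U using Finset.induction_on with
  | empty => simp [chi, ex_const hp0 hp1]
  | insert u U hu ih =>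
    have h1 : (fun x => chi p (insert u U) x ^ 2)
        = fun x => (fun b => chi1 p b ^ 2) (x u) * chi p U x ^ 2 := by
      funext x; rw [chi_insert p hu]; ring
    rw [h1, ex_mul_coord hp0 hp1 u (fun b => chi1 p b ^ 2) (fun x => chi p U x ^ 2)
      (fun x b => by rw [chi_update p hu]), ih, mul_one]
    exact mom2 hp0 hp1

lemma ex_chi_chi_ne (hp0 : 0 < p) (hp1 : p < 1) {U V : Finset ι} {u : ι} (hu : u ∈ U) (hv : u ∉ V) :
    ex p (fun x => chi p U x * chi p V x) = 0 := by
  have h1 : (fun x => chi p U x * chi p V x)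
      = fun x => (fun b => chi1 p b) (x u) * (chi p (U.erase u) x * chi p V x) := by
    funext x; rw [chi_erase p hu]; ring
  rw [h1, ex_mul_coord hp0 hp1 u (fun b => chi1 p b) (fun x => chi p (U.erase u) x * chi p V x)
    (fun x b => by rw [chi_update p (Finset.notMem_erase u U), chi_update p hv]),
    mom1 hp0 hp1, zero_mul]

lemma ex_chi_chi (hp0 : 0 < p) (hp1 : p < 1) (U V : Finset ι) :
    ex p (fun x => chi p U x * chi p V x) = if U = V then 1 else 0 := by
  by_cases h : U = V
  · subst h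
    rw [if_pos rfl, ← ex_chi_sq hp0 hp1 U]
    congr 1; funext x; ring
  · rw [if_neg h]
    by_cases h1 : U ⊆ V
    · have h2 : ¬ V ⊆ U := fun h2 => h (Finset.Subset.antisymm h1 h2)
      obtain ⟨u, hu, hu'⟩ := Finset.not_subset.mp h2
      have := ex_chi_chi_ne (p := p) hp0 hp1 hu hu'
      rw [← this]
      congr 1; funext x; ring
    · obtain ⟨u, hu, hu'⟩ := Finset.not_subset.mp h1
      exact ex_chi_chi_ne hp0 hp1 hu hu'

lemma ex_chi_sum_mul (hp0 : 0 < p) (hp1 : p < 1) (F G : Finset (Finset ι)) (hG : G ⊆ F)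
    (a b : Finset ι → ℝ) :
    ex p (fun x => (∑ U ∈ F, a U * chi p U x) * (∑ V ∈ G, b V * chi p V x))
      = ∑ V ∈ G, a V * b V := by
  have h1 : (fun x => (∑ U ∈ F, a U * chi p U x) * (∑ V ∈ G, b V * chi p V x))
      = fun x => ∑ V ∈ G, ∑ U ∈ F, (a U * b V) * (chi p U x * chi p V x) := by
    funext x
    rw [Finset.sum_mul_sum, Finset.sum_comm]
    refine Finset.sum_congr rfl fun V _ => Finset.sum_congr rfl fun U _ => ?_
    ring
  rw [h1, ex_sum]
  refine Finset.sum_congr rfl fun V hV => ?_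
  rw [ex_sum]
  simp_rw [ex_mul_left, ex_chi_chi hp0 hp1]
  simp only [mul_ite, mul_one, mul_zero]
  rw [Finset.sum_ite_eq' F V, if_pos (hG hV)]

lemma ex_abs_ge (hp0 : 0 < p) (hp1 : p < 1) (g : (ι → Bool) → ℝ) :
    |ex p g| ≤ ex p (fun x => |g x|) := by
  unfold ex
  refine (Finset.abs_sum_le_sum_abs _ _).trans (le_of_eq ?_)
  refine Finset.sum_congr rfl fun x _ => ?_
  rw [abs_mul, abs_of_pos (weight_pos hp0 hp1 x)]

lemma ex_comm' (G : (ι → Bool) → (ι → Bool) → ℝ) :
    ex p (fun x => ex p (fun z => G x z)) = ex p (fun z => ex p (fun x => G x z)) := by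
  unfold ex
  simp_rw [Finset.mul_sum]
  rw [Finset.sum_comm]
  refine Finset.sum_congr rfl fun z _ => Finset.sum_congr rfl fun x _ => ?_
  ring

/-- The conditional expectation on the coordinates in `S`. -/
noncomputable def Pg (p : ℝ) (S : Finset ι) (h : (ι → Bool) → ℝ) (x : ι → Bool) : ℝ :=
  ex p (fun z => h (glue S x z))

lemma chi_empty (p : ℝ) (x : ι → Bool) : chi p (∅ : Finset ι) x = 1 := by simp [chi]

lemma Pg_chi (hp0 : 0 < p) (hp1 : p < 1) (U S : Finset ι) (x : ι → Bool) :
    ex p (fun z => chi p U (glue S x z)) = if U ⊆ S then chi p U x else 0 := by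
  by_cases h : U ⊆ S
  · rw [if_pos h]
    have : (fun z => chi p U (glue S x z)) = fun _ => chi p U x := by
      funext z
      exact chi_congr U fun i hi => by simp [glue, h hi]
    rw [this, ex_const hp0 hp1]
  · rw [if_neg h]
    obtain ⟨u, hu, hu'⟩ := Finset.not_subset.mp h
    have hdisj : Disjoint (U ∩ S) (U \ S) := Finset.disjoint_sdiff_inter U S |>.symm
    have h1 : (fun z => chi p U (glue S x z))
        = fun z => chi p (U ∩ S) x * (chi p (U \ S) z * chi p ∅ z) := by
      funext z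
      have hU : U = (U ∩ S) ∪ (U \ S) := by
        ext i; by_cases h : i ∈ S <;> simp [h]
      rw [chi_empty, mul_one]
      conv_lhs => rw [hU]
      rw [chi_union hdisj]
      congr 1
      · exact chi_congr _ fun i hi => by simp [glue, (Finset.mem_inter.mp hi).2]
      · exact chi_congr _ fun i hi => by simp [glue, (Finset.mem_sdiff.mp hi).2]
    rw [h1, ex_mul_left, ex_chi_chi_ne hp0 hp1 (Finset.mem_sdiff.mpr ⟨hu, hu'⟩)
      (Finset.notMem_empty u), mul_zero]

lemma Pg_eq (hp0 : 0 < p) (hp1 : p < 1) (S : Finset ι) (h : (ι → Bool) → ℝ) (x : ι → Bool) :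
    Pg p S h x = ∑ U ∈ S.powerset, coeff p h U * chi p U x := by
  unfold Pg
  have h1 : (fun z => h (glue S x z)) = fun z => ∑ U, coeff p h U * chi p U (glue S x z) := by
    funext z
    exact (sum_coeff_chi hp0 hp1 h _).symm
  rw [h1, ex_sum]
  simp_rw [ex_mul_left, Pg_chi hp0 hp1]
  rw [← Finset.sum_subset (Finset.subset_univ S.powerset)]
  · refine Finset.sum_congr rfl fun U hU => ?_
    rw [if_pos (Finset.mem_powerset.mp hU)]
  · intro U _ hU
    rw [if_neg (fun hh => hU (Finset.mem_powerset.mpr hh)), mul_zero]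

lemma Pg_l1 (hp0 : 0 < p) (hp1 : p < 1) (S : Finset ι) (h : (ι → Bool) → ℝ) :
    ex p (fun x => |Pg p S h x|) ≤ ex p (fun x => |h x|) := by
  calc ex p (fun x => |Pg p S h x|) ≤ ex p (fun x => ex p (fun z => |h (glue S x z)|)) :=
        ex_mono hp0 hp1 fun x => ex_abs_ge hp0 hp1 _
    _ = ex p (fun z => ex p (fun x => |h (glue S x z)|)) := ex_comm' _
    _ = ex p (fun x => |h x|) := ex_ex_glue hp0 hp1 S (fun y => |h y|)

lemma abs_deriv1_bv (F : (ι → Bool) → Bool) (e : ι) (x : ι → Bool) :
    |deriv1 (bv F) e x| = ind (F (Function.update x e true) ≠ F (Function.update x e false)) := by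
  unfold deriv1 bv
  cases h1 : F (Function.update x e true) <;> cases h2 : F (Function.update x e false) <;> simp

/-- One step of the telescoping. -/
lemma step_l1 (hp0 : 0 < p) (hp1 : p < 1) (F : (ι → Bool) → Bool) {S : Finset ι} {e : ι}
    (he : e ∉ S) :
    ex p (fun x => |∑ U ∈ S.powerset, coeff p (bv F) (insert e U) * chi p (insert e U) x|)
      ≤ 2 * sig p ^ 2 * piv p F e := by
  have hσ := sig_pos hp0 hp1
  set D := deriv1 (bv F) e with hD
  have h1 : ∀ x, ∑ U ∈ S.powerset, coeff p (bv F) (insert e U) * chi p (insert e U) x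
      = sig p * (chi1 p (x e) * Pg p S D x) := by
    intro x
    rw [Pg_eq hp0 hp1, Finset.mul_sum, Finset.mul_sum]
    refine Finset.sum_congr rfl fun U hU => ?_
    have heU : e ∉ U := fun h => he (Finset.mem_powerset.mp hU h)
    rw [coeff_eq_deriv hp0 hp1 _ (Finset.mem_insert_self e U), Finset.erase_insert heU,
      chi_insert p heU]
    ring
  have h2 : (fun x => |∑ U ∈ S.powerset, coeff p (bv F) (insert e U) * chi p (insert e U) x|)
      = fun x => sig p * ((fun b => |chi1 p b|) (x e) * |Pg p S D x|) := by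
    funext x
    rw [h1, abs_mul, abs_mul, abs_of_pos hσ]
  have hglue : ∀ x b z, glue S (Function.update x e b) z = glue S x z := by
    intro x b z
    funext i
    by_cases hi : i ∈ S
    · have : i ≠ e := fun h => he (h ▸ hi)
      simp [glue, hi, Function.update_of_ne this]
    · simp [glue, hi]
  rw [h2, ex_mul_left, ex_mul_coord hp0 hp1 e (fun b => |chi1 p b|) (fun x => |Pg p S D x|)
    (fun x b => by unfold Pg; simp only [hglue])]
  have h3 : p * |chi1 p true| + (1 - p) * |chi1 p false| = 2 * sig p := by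
    rw [chi1_true, chi1_false, abs_div, abs_div, abs_of_pos hσ, abs_of_pos (by linarith : 0 < 1 - p),
      abs_neg, abs_of_pos hp0]
    have hs := sig_sq hp0 hp1
    field_simp
    rw [hs]
    ring
  have h4 : ex p (fun x => |Pg p S D x|) ≤ piv p F e := by
    refine (Pg_l1 hp0 hp1 S D).trans (le_of_eq ?_)
    unfold piv
    congr 1; funext x
    exact abs_deriv1_bv F e x
  rw [h3]
  calc sig p * (2 * sig p * ex p (fun x => |Pg p S D x|))
      ≤ sig p * (2 * sig p * piv p F e) := by gcongr
    _ = _ := by ring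

lemma ex_abs_add_le (hp0 : 0 < p) (hp1 : p < 1) (g h : (ι → Bool) → ℝ) :
    ex p (fun x => |g x + h x|) ≤ ex p (fun x => |g x|) + ex p (fun x => |h x|) := by
  rw [← ex_add]
  exact ex_mono hp0 hp1 fun x => abs_add_le _ _

/-- L1a: the `L¹` norm of `E[F | S] - E F` is at most `2σ² ∑_{e ∈ S} piv F e`. -/
theorem l1_row (hp0 : 0 < p) (hp1 : p < 1) (F : (ι → Bool) → Bool) (S : Finset ι) :
    ex p (fun x => |∑ U ∈ neFam S, coeff p (bv F) U * chi p U x|)
      ≤ 2 * sig p ^ 2 * ∑ e ∈ S, piv p F e := by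
  induction S using Finset.induction_on with
  | empty =>
    simp only [neFam, Finset.powerset_empty, Finset.sum_empty, mul_zero]
    have : (Finset.filter Finset.Nonempty {(∅ : Finset ι)}) = ∅ := by
      apply Finset.filter_eq_empty_iff.mpr
      intro U hU
      rw [Finset.mem_singleton.mp hU]
      exact Finset.not_nonempty_empty
    rw [this]
    simp [ex_const hp0 hp1]
  | insert e S he ih =>
    have h1 : ∀ x, ∑ U ∈ neFam (insert e S), coeff p (bv F) U * chi p U x
        = ∑ U ∈ neFam S, coeff p (bv F) U * chi p U x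
          + ∑ U ∈ S.powerset, coeff p (bv F) (insert e U) * chi p (insert e U) x := by
      intro x
      unfold neFam
      rw [Finset.sum_filter, Finset.sum_filter, Finset.sum_powerset_insert he]
      congr 1
      refine Finset.sum_congr rfl fun U _ => ?_
      rw [if_pos (Finset.insert_nonempty e U)]
    simp_rw [h1]
    refine (ex_abs_add_le hp0 hp1 _ _).trans ?_
    rw [Finset.sum_insert he, mul_add]
    have := step_l1 hp0 hp1 F he
    linarith

/-- L1b: the fibre inequality. -/
theorem row_bound (hp0 : 0 < p) (hp1 : p < 1) (F : (ι → Bool) → Bool) (S : Finset ι) (d : ℕ) :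
    ∑ U ∈ lowFam S d, coeff p (bv F) U ^ 2
      ≤ (2 / sig p) ^ d * Real.sqrt (∑ U ∈ neFam S, coeff p (bv F) U ^ 2)
          * (2 * sig p ^ 2 * ∑ e ∈ S, piv p F e) := by
  have hσ := sig_pos hp0 hp1
  have hσ2 := sig_le hp0 hp1
  set g := bv F with hg
  set L := ∑ U ∈ lowFam S d, coeff p g U ^ 2 with hL
  set ρ' := ∑ U ∈ neFam S, coeff p g U ^ 2 with hρ'
  set A := ex p (fun x => |∑ U ∈ neFam S, coeff p g U * chi p U x|) with hA
  set u : (ι → Bool) → ℝ := fun x => ∑ U ∈ neFam S, coeff p g U * chi p U x with hu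
  set w : (ι → Bool) → ℝ := fun x => ∑ U ∈ lowFam S d, coeff p g U * chi p U x with hw
  have hsub : lowFam S d ⊆ neFam S := by
    intro U hU
    have h := Finset.mem_filter.mp hU
    exact Finset.mem_filter.mpr ⟨h.1, h.2.1⟩
  have hL0 : 0 ≤ L := Finset.sum_nonneg fun _ _ => sq_nonneg _
  have hρ0 : 0 ≤ ρ' := Finset.sum_nonneg fun _ _ => sq_nonneg _
  have hΓ : 1 ≤ 2 / sig p := by
    rw [le_div_iff₀ hσ]; linarith
  -- `E[u w] = L`, `E u² = ρ'`
  have huw : ex p (fun x => u x * w x) = L := by
    rw [hu, hw]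
    simp only
    rw [ex_chi_sum_mul hp0 hp1 _ _ hsub]
    exact Finset.sum_congr rfl fun U _ => by ring
  have huu : ex p (fun x => u x ^ 2) = ρ' := by
    have := ex_chi_sum_mul hp0 hp1 (neFam S) (neFam S) (Finset.Subset.refl _)
      (fun U => coeff p g U) (fun U => coeff p g U)
    rw [hρ']
    simp only [sq] at this ⊢
    exact this
  -- the fourth moment of `w`
  have hw4 : ex p (fun x => (w x ^ 2) ^ 2) ≤ ((2 / sig p) ^ d * L) ^ 2 := by
    set ρ := Real.sqrt (sig p / 2) with hρ
    have hρ1 : ρ ^ 2 = sig p / 2 := Real.sq_sqrt (by positivity)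
    have hρpos : 0 < ρ := Real.sqrt_pos.mpr (by positivity)
    set a : Finset ι → ℝ := fun U =>
      if U ∈ lowFam S d then ρ⁻¹ ^ U.card * coeff p g U else 0 with ha
    have h24 := hyper24 hp0 hp1 a
    have h1 : ∀ x, ∑ U, ρ ^ U.card * a U * chi p U x = w x := by
      intro x
      rw [hw]
      simp only
      rw [← Finset.sum_subset (Finset.subset_univ (lowFam S d))]
      · refine Finset.sum_congr rfl fun U hU => ?_
        simp only [ha, if_pos hU]
        have : ρ ^ U.card * ρ⁻¹ ^ U.card = 1 := by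
          rw [← mul_pow, mul_inv_cancel₀ hρpos.ne', one_pow]
        calc _ = (ρ ^ U.card * ρ⁻¹ ^ U.card) * coeff p g U * chi p U x := by ring
          _ = _ := by rw [this, one_mul]
      · intro U _ hU
        simp [ha, if_neg hU]
    have h2 : ∑ U, a U ^ 2 ≤ (2 / sig p) ^ d * L := by
      rw [← Finset.sum_subset (Finset.subset_univ (lowFam S d))]
      · rw [hL, Finset.mul_sum]
        refine Finset.sum_le_sum fun U hU => ?_
        simp only [ha, if_pos hU]
        rw [mul_pow]
        apply mul_le_mul_of_nonneg_right _ (sq_nonneg _)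
        have hcard : U.card ≤ d := (Finset.mem_filter.mp hU).2.2
        have : (ρ⁻¹ ^ U.card) ^ 2 = (2 / sig p) ^ U.card := by
          rw [← pow_mul, mul_comm, pow_mul, inv_pow, hρ1]
          congr 1
          field_simp
        rw [this]
        exact pow_le_pow_right₀ hΓ hcard
      · intro U _ hU
        simp [ha, if_neg hU]
    have h3 : (∑ U, a U ^ 2) ^ 2 ≤ ((2 / sig p) ^ d * L) ^ 2 :=
      pow_le_pow_left₀ (Finset.sum_nonneg fun _ _ => sq_nonneg _) h2 2
    refine le_trans (le_of_eq ?_) (h24.trans h3)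
    congr 1; funext x
    rw [h1]; ring
  -- two Cauchy-Schwarz
  have hA0 : 0 ≤ A := ex_nonneg hp0 hp1 fun x => abs_nonneg _
  have hcs1 : L ^ 2 ≤ A * ex p (fun x => |u x| * w x ^ 2) := by
    have h1 := ex_cs hp0 hp1 (fun x => Real.sqrt |u x|) (fun x => Real.sqrt |u x| * |w x|)
    have h2 : ex p (fun x => Real.sqrt |u x| * (Real.sqrt |u x| * |w x|))
        = ex p (fun x => |u x| * |w x|) := by
      congr 1; funext x
      rw [← mul_assoc, Real.mul_self_sqrt (abs_nonneg _)]
    have h3 : ex p (fun x => Real.sqrt |u x| ^ 2) = A := by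
      rw [hA]
      congr 1; funext x
      rw [Real.sq_sqrt (abs_nonneg _)]
    have h4 : ex p (fun x => (Real.sqrt |u x| * |w x|) ^ 2) = ex p (fun x => |u x| * w x ^ 2) := by
      congr 1; funext x
      rw [mul_pow, Real.sq_sqrt (abs_nonneg _), sq_abs]
    rw [h2, h3, h4] at h1
    refine le_trans ?_ h1
    apply pow_le_pow_left₀ hL0
    rw [← huw]
    refine ex_mono hp0 hp1 fun x => ?_
    rw [← abs_mul]
    exact le_abs_self _
  have hcs2 : ex p (fun x => |u x| * w x ^ 2) ^ 2 ≤ ρ' * ((2 / sig p) ^ d * L) ^ 2 := by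
    have h1 := ex_cs hp0 hp1 (fun x => |u x|) (fun x => w x ^ 2)
    simp only [sq_abs] at h1
    rw [huu] at h1
    exact h1.trans (mul_le_mul_of_nonneg_left hw4 hρ0)
  have hE0 : 0 ≤ ex p (fun x => |u x| * w x ^ 2) :=
    ex_nonneg hp0 hp1 fun x => by positivity
  set Γ := (2 / sig p) ^ d with hΓdef
  have hΓ0 : 0 < Γ := by positivity
  -- `E[|u| w²] ≤ √ρ' Γ L`
  have hE1 : ex p (fun x => |u x| * w x ^ 2) ≤ Real.sqrt ρ' * (Γ * L) := by
    apply abs_le_of_sq_le_sq' _ (by positivity) |>.2
    rw [mul_pow, Real.sq_sqrt hρ0]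
    exact hcs2
  have hfin : L ≤ Γ * Real.sqrt ρ' * A := by
    rcases eq_or_lt_of_le hL0 with h0 | h0
    · rw [← h0]; positivity
    · have h5 : L * L ≤ L * (Γ * Real.sqrt ρ' * A) := by
        calc L * L = L ^ 2 := by ring
          _ ≤ A * ex p (fun x => |u x| * w x ^ 2) := hcs1
          _ ≤ A * (Real.sqrt ρ' * (Γ * L)) := mul_le_mul_of_nonneg_left hE1 hA0
          _ = _ := by ring
      exact le_of_mul_le_mul_left h5 h0
  refine hfin.trans ?_
  apply mul_le_mul_of_nonneg_left (l1_row hp0 hp1 F S) (by positivity)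

end Row

end Crest.Agent.BK
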