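/-
Row 56, Route L, task L2 (Vertex.lean): the vertex key lemma.
-/
import Crest.Agent.Lib.BK.RowBound
import Crest.Agent.Lib.BK.Fiber
import Crest.Agent.Lib.BK.Influence
import Crest.Agent.Lib.BK.Symmetry

set_option autoImplicit false
set_option linter.unusedSectionVars false

namespace Crest.Agent.BK

open Finset
open Crest.CombinatoricsR.HypergraphCube

section Generic
variable {ι : Type*} [Fintype ι] [DecidableEq ι] {p : ℝ}

lemma vb_chi_image (π : Equiv.Perm ι) (U : Finset ι) (y : ι → Bool) :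
    chi p (U.image π) y = chi p U (y ∘ π) := by
  unfold chi
  rw [Finset.prod_image (fun a _ b _ h => π.injective h)]
  rfl

lemma vb_coeff_image (π : Equiv.Perm ι) (G : (ι → Bool) → Bool) (hG : ∀ y, G (y ∘ π) = G y)
    (U : Finset ι) : coeff p (bv G) (U.image π) = coeff p (bv G) U := by
  unfold coeff
  rw [← sym_ex_comp_perm π (fun y => bv G y * chi p U y)]
  congr 1
  funext y
  rw [vb_chi_image]
  unfold bv
  rw [hG]

end Generic

section Hyper

variable {n r : ℕ} {p : ℝ}

/-- The vertices covered by a set of hyperedges. -/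
def vert (T : Finset (HyperedgeSlot n r)) : Finset (Fin n) := T.biUnion (fun e => e.1)

/-- Number of hyperedges of `T` containing `x`. -/
def degT (T : Finset (HyperedgeSlot n r)) (x : Fin n) : ℕ := (T.filter (fun e => x ∈ e.1)).card

/-- The slots containing `x`. -/
def star (x : Fin n) : Finset (HyperedgeSlot n r) := univ.filter (fun e => x ∈ e.1)

/-- Slots meeting `X`. -/
def meetS (X : Finset (Fin n)) : Finset (HyperedgeSlot n r) :=
  univ.filter (fun e => (e.1 ∩ X).Nonempty)

/-- Slots meeting `X` exactly in `x`. -/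
def exactS (X : Finset (Fin n)) (x : Fin n) : Finset (HyperedgeSlot n r) :=
  univ.filter (fun e => e.1 ∩ X = {x})

lemma mem_meetS {X : Finset (Fin n)} {e : HyperedgeSlot n r} :
    e ∈ meetS X ↔ (e.1 ∩ X).Nonempty := by simp [meetS]

lemma mem_exactS {X : Finset (Fin n)} {x : Fin n} {e : HyperedgeSlot n r} :
    e ∈ exactS X x ↔ e.1 ∩ X = {x} := by simp [exactS]

lemma exactS_subset_meetS (X : Finset (Fin n)) (x : Fin n) :
    (exactS X x : Finset (HyperedgeSlot n r)) ⊆ meetS X := by
  intro e he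
  rw [mem_exactS] at he
  rw [mem_meetS, he]
  exact Finset.singleton_nonempty _

lemma exactS_subset_star (X : Finset (Fin n)) (x : Fin n) :
    (exactS X x : Finset (HyperedgeSlot n r)) ⊆ star x := by
  intro e he
  rw [mem_exactS] at he
  have : x ∈ e.1 ∩ X := by rw [he]; exact Finset.mem_singleton_self _
  simp only [star, Finset.mem_filter, Finset.mem_univ, true_and]
  exact (Finset.mem_inter.1 this).1

lemma vb_mem_slotPerm (σ : Equiv.Perm (Fin n)) (e : HyperedgeSlot n r) (v : Fin n) :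
    v ∈ (slotPerm σ e).1 ↔ σ.symm v ∈ e.1 := by
  simp only [slotPerm_apply, relabelSlot]
  rw [Finset.mem_map_equiv]

lemma vb_swap_mem {X : Finset (Fin n)} {x x' : Fin n} (hx : x ∈ X) (hx' : x' ∈ X) (v : Fin n) :
    Equiv.swap x x' v ∈ X ↔ v ∈ X := by
  by_cases h1 : v = x
  · subst h1; simp [hx, hx']
  · by_cases h2 : v = x'
    · subst h2; simp [hx, hx']
    · rw [Equiv.swap_apply_of_ne_of_ne h1 h2]

lemma vb_swap_symm (x x' v : Fin n) : (Equiv.swap x x').symm v = Equiv.swap x x' v := rfl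

lemma vb_mem_meet_swap {X : Finset (Fin n)} {x x' : Fin n} (hx : x ∈ X) (hx' : x' ∈ X)
    (e : HyperedgeSlot n r) : slotPerm (Equiv.swap x x') e ∈ meetS X ↔ e ∈ meetS X := by
  rw [mem_meetS, mem_meetS]
  constructor
  · rintro ⟨v, hv⟩
    obtain ⟨h1, h2⟩ := Finset.mem_inter.1 hv
    rw [vb_mem_slotPerm, vb_swap_symm] at h1
    exact ⟨_, Finset.mem_inter.2 ⟨h1, (vb_swap_mem hx hx' v).2 h2⟩⟩
  · rintro ⟨v, hv⟩
    obtain ⟨h1, h2⟩ := Finset.mem_inter.1 hv
    refine ⟨Equiv.swap x x' v, Finset.mem_inter.2 ⟨?_, (vb_swap_mem hx hx' v).2 h2⟩⟩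
    rw [vb_mem_slotPerm, vb_swap_symm, Equiv.swap_apply_self]
    exact h1

lemma vb_fix_swap {X : Finset (Fin n)} {x x' : Fin n} (hx : x ∈ X) (hx' : x' ∈ X)
    {e : HyperedgeSlot n r} (he : e ∉ meetS X) : slotPerm (Equiv.swap x x') e = e := by
  rw [slotPerm_apply]
  rw [mem_meetS] at he
  apply relabelSlot_swap_of_notMem
  · intro h; exact he ⟨x, Finset.mem_inter.2 ⟨h, hx⟩⟩
  · intro h; exact he ⟨x', Finset.mem_inter.2 ⟨h, hx'⟩⟩

/-- The fibre over `z` is invariant under the swap. -/
lemma vb_fib_swap {f : (HyperedgeSlot n r → Bool) → Bool} (hf : IsSymmetric f)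
    {X : Finset (Fin n)} {x x' : Fin n} (hx : x ∈ X) (hx' : x' ∈ X) (z : HyperedgeSlot n r → Bool)
    (y : HyperedgeSlot n r → Bool) :
    fib (meetS X) f z (y ∘ slotPerm (Equiv.swap x x')) = fib (meetS X) f z y := by
  unfold fib
  have h : glue (meetS X) (y ∘ slotPerm (Equiv.swap x x')) z
      = (glue (meetS X) y z) ∘ slotPerm (Equiv.swap x x') := by
    funext e
    simp only [glue, Function.comp_apply]
    by_cases he : e ∈ meetS X
    · rw [if_pos he, if_pos ((vb_mem_meet_swap hx hx' e).2 he)]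
    · rw [if_neg he, if_neg (fun h' => he ((vb_mem_meet_swap hx hx' e).1 h')),
        vb_fix_swap hx hx' he]
  rw [h]
  exact sym_f_comp hf _ _

lemma vb_exact_swap {X : Finset (Fin n)} {x x' : Fin n} (hx : x ∈ X) (hx' : x' ∈ X)
    {e : HyperedgeSlot n r} (he : e ∈ exactS X x) : slotPerm (Equiv.swap x x') e ∈ exactS X x' := by
  rw [mem_exactS] at he ⊢
  ext v
  rw [Finset.mem_inter, vb_mem_slotPerm, vb_swap_symm, Finset.mem_singleton]
  constructor
  · rintro ⟨h1, h2⟩
    have h3 : Equiv.swap x x' v ∈ e.1 ∩ X :=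
      Finset.mem_inter.2 ⟨h1, (vb_swap_mem hx hx' v).2 h2⟩
    rw [he, Finset.mem_singleton] at h3
    have := congrArg (Equiv.swap x x') h3
    rw [Equiv.swap_apply_self, Equiv.swap_apply_left] at this
    exact this
  · rintro rfl
    rw [Equiv.swap_apply_right]
    have : x ∈ e.1 ∩ X := by rw [he]; exact Finset.mem_singleton_self _
    exact ⟨(Finset.mem_inter.1 this).1, hx'⟩

/-- The image of a family under a swap. -/
lemma vb_image_image {x x' : Fin n} (U : Finset (HyperedgeSlot n r)) :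
    (U.image (slotPerm (Equiv.swap x x'))).image (slotPerm (Equiv.swap x x')) = U := by
  rw [Finset.image_image]
  have : (⇑(slotPerm (Equiv.swap x x') : Equiv.Perm (HyperedgeSlot n r)) ∘
      ⇑(slotPerm (Equiv.swap x x') : Equiv.Perm (HyperedgeSlot n r))) = id := by
    funext e
    apply Subtype.ext
    ext v
    simp only [Function.comp_apply, id_eq]
    rw [vb_mem_slotPerm, vb_mem_slotPerm, vb_swap_symm, vb_swap_symm, Equiv.swap_apply_self]
  rw [this, Finset.image_id]

lemma vb_neFam_image {X : Finset (Fin n)} {x x' : Fin n} (hx : x ∈ X) (hx' : x' ∈ X)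
    {U : Finset (HyperedgeSlot n r)} (hU : U ∈ neFam (exactS X x)) :
    U.image (slotPerm (Equiv.swap x x')) ∈ neFam (exactS X x') := by
  unfold neFam at hU ⊢
  rw [Finset.mem_filter, Finset.mem_powerset] at hU ⊢
  refine ⟨?_, hU.2.image _⟩
  intro e he
  obtain ⟨e', he', rfl⟩ := Finset.mem_image.1 he
  exact vb_exact_swap hx hx' (hU.1 he')

/-- All rows have the same mass. -/
lemma vb_row_eq {f : (HyperedgeSlot n r → Bool) → Bool} (hf : IsSymmetric f)
    {X : Finset (Fin n)} {x x' : Fin n} (hx : x ∈ X) (hx' : x' ∈ X) (z : HyperedgeSlot n r → Bool) :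
    ∑ U ∈ neFam (exactS X x), coeff p (bv (fib (meetS X) f z)) U ^ 2
      = ∑ U ∈ neFam (exactS X x'), coeff p (bv (fib (meetS X) f z)) U ^ 2 := by
  refine Finset.sum_nbij' (fun U => U.image (slotPerm (Equiv.swap x x')))
    (fun U => U.image (slotPerm (Equiv.swap x x'))) ?_ ?_ ?_ ?_ ?_
  · intro U hU
    exact vb_neFam_image hx hx' hU
  · intro U hU
    have := vb_neFam_image (x := x') (x' := x) hx' hx hU
    rwa [Equiv.swap_comm] at this
  · intro U _
    exact vb_image_image U
  · intro U _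
    exact vb_image_image U
  · intro U _
    rw [vb_coeff_image (p := p) (slotPerm (Equiv.swap x x')) (fib (meetS X) f z)
      (vb_fib_swap hf hx hx' z) U]

/-- Pointwise Bessel. -/
lemma vb_bessel (hp0 : 0 < p) (hp1 : p < 1) {f : (HyperedgeSlot n r → Bool) → Bool}
    (hf : IsSymmetric f) {X : Finset (Fin n)} {x : Fin n} (hx : x ∈ X)
    (z : HyperedgeSlot n r → Bool) :
    (X.card : ℝ) * ∑ U ∈ neFam (exactS X x), coeff p (bv (fib (meetS X) f z)) U ^ 2 ≤ 1 / 4 := by
  set c : Finset (HyperedgeSlot n r) → ℝ := fun U => coeff p (bv (fib (meetS X) f z)) U ^ 2 with hc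
  have hdisj : ((X : Set (Fin n))).PairwiseDisjoint
      (fun x' => (neFam (exactS X x') : Finset (Finset (HyperedgeSlot n r)))) := by
    intro a _ b _ hab
    refine Finset.disjoint_left.2 fun U hUa hUb => hab ?_
    unfold neFam at hUa hUb
    rw [Finset.mem_filter, Finset.mem_powerset] at hUa hUb
    obtain ⟨e, he⟩ := hUa.2
    have h1 := mem_exactS.1 (hUa.1 he)
    have h2 := mem_exactS.1 (hUb.1 he)
    rw [h1] at h2
    exact Finset.singleton_injective h2
  have h1 : (X.card : ℝ) * ∑ U ∈ neFam (exactS X x), c U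
      = ∑ x' ∈ X, ∑ U ∈ neFam (exactS X x'), c U := by
    have h0 : ∀ x' ∈ X, ∑ U ∈ neFam (exactS X x'), c U = ∑ U ∈ neFam (exactS X x), c U :=
      fun x' hx' => (vb_row_eq (p := p) hf hx hx' z).symm
    rw [Finset.sum_congr rfl h0, Finset.sum_const, nsmul_eq_mul]
  rw [h1, ← Finset.sum_biUnion hdisj]
  have h2 : ∑ U ∈ X.biUnion (fun x' => neFam (exactS X x')), c U
      ≤ ∑ U ∈ univ.filter (fun U : Finset (HyperedgeSlot n r) => U.Nonempty), c U := by
    refine Finset.sum_le_sum_of_subset_of_nonneg ?_ (fun U _ _ => sq_nonneg _)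
    intro U hU
    obtain ⟨x', _, hU'⟩ := Finset.mem_biUnion.1 hU
    unfold neFam at hU'
    rw [Finset.mem_filter] at hU' ⊢
    exact ⟨Finset.mem_univ _, hU'.2⟩
  refine h2.trans ?_
  rw [hc, var_eq hp0 hp1]
  nlinarith [sq_nonneg (ex p (bv (fib (meetS X) f z)) - 1 / 2)]

/-- The square root of the row mass. -/
lemma vb_sqrt_row (hp0 : 0 < p) (hp1 : p < 1) {f : (HyperedgeSlot n r → Bool) → Bool}
    (hf : IsSymmetric f) {X : Finset (Fin n)} {x : Fin n} (hx : x ∈ X)
    (z : HyperedgeSlot n r → Bool) :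
    Real.sqrt (∑ U ∈ neFam (exactS X x), coeff p (bv (fib (meetS X) f z)) U ^ 2)
      ≤ 1 / (2 * Real.sqrt X.card) := by
  have hm : (0 : ℝ) < X.card := by exact_mod_cast Finset.card_pos.2 ⟨x, hx⟩
  have h := vb_bessel hp0 hp1 hf hx z
  set ρ := ∑ U ∈ neFam (exactS X x), coeff p (bv (fib (meetS X) f z)) U ^ 2 with hρ
  have hs : 0 < Real.sqrt X.card := Real.sqrt_pos.2 hm
  have hsq : Real.sqrt X.card ^ 2 = X.card := Real.sq_sqrt hm.le
  apply Real.sqrt_le_iff.2
  refine ⟨by positivity, ?_⟩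
  rw [div_pow, mul_pow, hsq, le_div_iff₀ (by positivity)]
  nlinarith

/-- The pointwise row bound. -/
lemma vb_pointwise (hp0 : 0 < p) (hp1 : p < 1) {f : (HyperedgeSlot n r → Bool) → Bool}
    (hf : IsSymmetric f) {X : Finset (Fin n)} {x : Fin n} (hx : x ∈ X) (d : ℕ)
    (z : HyperedgeSlot n r → Bool) :
    ∑ U ∈ lowFam (exactS X x) d, coeff p (bv (fib (meetS X) f z)) U ^ 2
      ≤ (2 / sig p) ^ d * (sig p ^ 2 / Real.sqrt X.card)
          * ∑ e ∈ exactS X x, pz p (meetS X) f e z := by
  have hσ := sig_pos hp0 hp1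
  have hm : (0 : ℝ) < X.card := by exact_mod_cast Finset.card_pos.2 ⟨x, hx⟩
  have hs : 0 < Real.sqrt X.card := Real.sqrt_pos.2 hm
  have h := row_bound hp0 hp1 (fib (meetS X) f z) (exactS X x) d
  have hP : 0 ≤ ∑ e ∈ exactS X x, pz p (meetS X) f e z :=
    Finset.sum_nonneg fun u _ => pz_nonneg hp0 hp1 _ f u z
  have h2 := vb_sqrt_row hp0 hp1 hf hx z
  refine h.trans ?_
  have hpz : ∑ e ∈ exactS X x, piv p (fib (meetS X) f z) e
      = ∑ e ∈ exactS X x, pz p (meetS X) f e z := rfl
  rw [hpz]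
  have h3 : (2 / sig p) ^ d * Real.sqrt (∑ U ∈ neFam (exactS X x),
        coeff p (bv (fib (meetS X) f z)) U ^ 2)
      ≤ (2 / sig p) ^ d * (1 / (2 * Real.sqrt X.card)) :=
    mul_le_mul_of_nonneg_left h2 (by positivity)
  calc _ ≤ (2 / sig p) ^ d * (1 / (2 * Real.sqrt X.card))
        * (2 * sig p ^ 2 * ∑ e ∈ exactS X x, pz p (meetS X) f e z) :=
        mul_le_mul_of_nonneg_right h3 (by positivity)
    _ = _ := by field_simp

/-- L2: the key lemma. -/
theorem vertex_bound (hp0 : 0 < p) (hp1 : p < 1) {f : (HyperedgeSlot n r → Bool) → Bool}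
    (hf : IsSymmetric f) (X : Finset (Fin n)) {x : Fin n} (hx : x ∈ X) (d : ℕ) :
    ∑ T ∈ univ.filter (fun T : Finset (HyperedgeSlot n r) => vert T ∩ X = {x} ∧ degT T x ≤ d),
        coeff p (bv f) T ^ 2
      ≤ (2 / sig p) ^ d * (sig p ^ 2 / Real.sqrt X.card) * ∑ e ∈ star x, piv p f e := by
  classical
  set R : Finset (HyperedgeSlot n r) := meetS X with hR
  set S : Finset (HyperedgeSlot n r) := exactS X x with hS
  have hσ := sig_pos hp0 hp1
  -- Step 1: the decomposition `T = (T ∩ R) ∪ (T \ R)`.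
  have h1 : ∑ T ∈ univ.filter (fun T : Finset (HyperedgeSlot n r) => vert T ∩ X = {x} ∧ degT T x ≤ d),
        coeff p (bv f) T ^ 2 ≤
      ∑ U ∈ lowFam S d, ∑ B ∈ univ.filter (fun B : Finset (HyperedgeSlot n r) => Disjoint B R),
        coeff p (bv f) (U ∪ B) ^ 2 := by
    rw [Finset.sum_sigma']
    set 𝒯 := univ.filter (fun T : Finset (HyperedgeSlot n r) => vert T ∩ X = {x} ∧ degT T x ≤ d)
      with h𝒯
    let φ : Finset (HyperedgeSlot n r) →
        (Σ _ : Finset (HyperedgeSlot n r), Finset (HyperedgeSlot n r)) := fun T => ⟨T ∩ R, T \ R⟩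
    have hunion : ∀ T : Finset (HyperedgeSlot n r), T ∩ R ∪ T \ R = T :=
      fun T => by rw [Finset.union_comm]; exact Finset.sdiff_union_inter _ _
    have hφ : Set.InjOn φ (𝒯 : Set (Finset (HyperedgeSlot n r))) := by
      intro T _ T' _ hTT'
      have h1 : T ∩ R = T' ∩ R := congrArg Sigma.fst hTT'
      have h2 : T \ R = T' \ R := by
        have := Sigma.mk.inj_iff.1 hTT'
        exact eq_of_heq this.2
      rw [← hunion T, ← hunion T', h1, h2]
    calc ∑ T ∈ 𝒯, coeff p (bv f) T ^ 2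
        = ∑ y ∈ 𝒯.image φ, coeff p (bv f) (y.1 ∪ y.2) ^ 2 := by
          rw [Finset.sum_image hφ]
          refine Finset.sum_congr rfl fun T _ => ?_
          simp only [φ, hunion]
      _ ≤ _ := by
          refine Finset.sum_le_sum_of_subset_of_nonneg ?_ (fun _ _ _ => sq_nonneg _)
          intro y hy
          obtain ⟨T, hT, rfl⟩ := Finset.mem_image.1 hy
          rw [h𝒯, Finset.mem_filter] at hT
          obtain ⟨-, hT1, hT2⟩ := hT
          rw [Finset.mem_sigma]
          refine ⟨?_, ?_⟩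
          · -- `T ∩ R ∈ lowFam S d`
            simp only [φ]
            have hsub : T ∩ R ⊆ S := by
              intro e he
              obtain ⟨heT, heR⟩ := Finset.mem_inter.1 he
              rw [hS, mem_exactS]
              rw [hR, mem_meetS] at heR
              have hsub' : e.1 ∩ X ⊆ vert T ∩ X := by
                intro v hv
                obtain ⟨hv1, hv2⟩ := Finset.mem_inter.1 hv
                exact Finset.mem_inter.2 ⟨Finset.mem_biUnion.2 ⟨e, heT, hv1⟩, hv2⟩
              rw [hT1] at hsub'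
              apply Finset.Subset.antisymm hsub'
              obtain ⟨v, hv⟩ := heR
              have hvx : v = x := Finset.mem_singleton.1 (hsub' hv)
              rw [Finset.singleton_subset_iff, ← hvx]
              exact hv
            unfold lowFam
            rw [Finset.mem_filter, Finset.mem_powerset]
            refine ⟨hsub, ?_, ?_⟩
            · have hxv : x ∈ vert T ∩ X := by rw [hT1]; exact Finset.mem_singleton_self _
              obtain ⟨e, heT, hxe⟩ := Finset.mem_biUnion.1 (Finset.mem_inter.1 hxv).1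
              refine ⟨e, Finset.mem_inter.2 ⟨heT, ?_⟩⟩
              rw [hR, mem_meetS]
              exact ⟨x, Finset.mem_inter.2 ⟨hxe, hx⟩⟩
            · refine le_trans (Finset.card_le_card ?_) hT2
              intro e he
              obtain ⟨heT, _⟩ := Finset.mem_inter.1 he
              rw [Finset.mem_filter]
              refine ⟨heT, ?_⟩
              exact Finset.mem_of_subset (exactS_subset_star X x) (hsub he) |> fun h => by
                simpa [star] using h
          · simp only [φ]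
            rw [Finset.mem_filter]
            exact ⟨Finset.mem_univ _, Finset.sdiff_disjoint⟩
  -- Step 2: Parseval in `z`.
  have h2 : ∑ U ∈ lowFam S d, ∑ B ∈ univ.filter (fun B : Finset (HyperedgeSlot n r) => Disjoint B R),
        coeff p (bv f) (U ∪ B) ^ 2
      ≤ ex p (fun z => ∑ U ∈ lowFam S d, coeff p (bv (fib R f z)) U ^ 2) := by
    rw [ex_sum]
    refine Finset.sum_le_sum fun U hU => ?_
    have hUR : U ⊆ R := by
      unfold lowFam at hU
      rw [Finset.mem_filter, Finset.mem_powerset] at hU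
      exact hU.1.trans (exactS_subset_meetS X x)
    have heq : ∑ B ∈ univ.filter (fun B : Finset (HyperedgeSlot n r) => Disjoint B R),
        coeff p (bv f) (U ∪ B) ^ 2
        = ∑ B ∈ univ.filter (fun B : Finset (HyperedgeSlot n r) => Disjoint B R),
          coeff p (cU p R f U) B ^ 2 := by
      refine Finset.sum_congr rfl fun B hB => ?_
      rw [coeff_union hp0 hp1 R f hUR (Finset.mem_filter.1 hB).2]
    rw [heq]
    have h3 : ∑ B ∈ univ.filter (fun B : Finset (HyperedgeSlot n r) => Disjoint B R),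
          coeff p (cU p R f U) B ^ 2
        ≤ ∑ B, coeff p (cU p R f U) B ^ 2 :=
      Finset.sum_le_sum_of_subset_of_nonneg (Finset.filter_subset _ _)
        (fun _ _ _ => sq_nonneg _)
    rw [sum_coeff_sq hp0 hp1] at h3
    exact h3
  -- Step 3: pointwise bound and integration.
  have h3 : ex p (fun z => ∑ U ∈ lowFam S d, coeff p (bv (fib R f z)) U ^ 2)
      ≤ ex p (fun z => (2 / sig p) ^ d * (sig p ^ 2 / Real.sqrt X.card)
          * ∑ e ∈ S, pz p R f e z) :=
    ex_mono hp0 hp1 fun z => vb_pointwise hp0 hp1 hf hx d z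
  have h4 : ex p (fun z => (2 / sig p) ^ d * (sig p ^ 2 / Real.sqrt X.card)
        * ∑ e ∈ S, pz p R f e z)
      = (2 / sig p) ^ d * (sig p ^ 2 / Real.sqrt X.card) * ∑ e ∈ S, piv p f e := by
    rw [ex_mul_left]
    congr 1
    rw [show (fun z => ∑ e ∈ S, pz p R f e z) = fun z => ∑ e ∈ S, pz p R f e z from rfl, ex_sum]
    exact Finset.sum_congr rfl fun e he => ex_pz hp0 hp1 R f (exactS_subset_meetS X x he)
  have h5 : ∑ e ∈ S, piv p f e ≤ ∑ e ∈ star x, piv p f e :=
    Finset.sum_le_sum_of_subset_of_nonneg (exactS_subset_star X x)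
      (fun u _ _ => piv_nonneg hp0 hp1 f u)
  calc _ ≤ _ := h1
    _ ≤ _ := h2
    _ ≤ _ := h3
    _ = _ := h4
    _ ≤ _ := mul_le_mul_of_nonneg_left h5 (by positivity)

end Hyper

end Crest.Agent.BK
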