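/-
Row 56, Route L, L3: averaging over blocks (`star_mass`), the partition of the nonempty sets of
slots (`master_L`).
-/
import Crest.Agent.Lib.BK.Vertex
import Crest.Agent.Lib.BK.NumericL

set_option autoImplicit false
set_option linter.unusedSectionVars false
set_option linter.unusedVariables false

namespace Crest.Agent.BK

open Finset
open Crest.CombinatoricsR.HypergraphCube

variable {n r : ℕ} {p : ℝ}

/-- The `i`-th block of vertices. -/
def blockB (n s i : ℕ) : Finset (Fin n) := univ.filter (fun v : Fin n => v.val / s = i)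

lemma card_blockB {s i : ℕ} (hs0 : 0 < s) (hs : s * s ≤ n) (hi : i < s) :
    s ≤ (blockB n s i).card := by
  have hbd : ∀ j ∈ range s, i * s + j < n := by
    intro j hj
    have hj' := Finset.mem_range.1 hj
    have : (i + 1) * s ≤ s * s := Nat.mul_le_mul_right _ hi
    nlinarith
  have : (range s).card ≤ (blockB n s i).card := by
    apply Finset.card_le_card_of_injOn
      (fun j => if h : i * s + j < n then (⟨i * s + j, h⟩ : Fin n) else ⟨0, by nlinarith⟩)
    · intro j hj
      have hj1 := Finset.mem_coe.1 hj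
      have h := hbd j hj1
      simp only [dif_pos h, blockB, Finset.coe_filter, Finset.mem_univ, true_and, Set.mem_ofPred_eq]
      have hj' := Finset.mem_range.1 hj1
      rw [Nat.add_comm, Nat.add_mul_div_right _ _ hs0, Nat.div_eq_of_lt hj']
      simp
    · intro j hj k hk hjk
      have hj1 := Finset.mem_coe.1 hj
      have hk1 := Finset.mem_coe.1 hk
      have h := hbd j hj1
      have h' := hbd k hk1
      simp only [dif_pos h, dif_pos h', Fin.mk.injEq] at hjk
      omega
  simpa using this

/-- The number of blocks missed by a set of vertices. -/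
lemma card_good_blocks {s : ℕ} (hs0 : 0 < s) (V : Finset (Fin n)) (x : Fin n) (hxV : x ∈ V)
    (hV : 2 * (V.card - 1) ≤ s) :
    s ≤ 2 * ((range s).filter (fun i => V ∩ insert x (blockB n s i) = {x})).card := by
  classical
  set I := (range s).filter (fun i => V ∩ insert x (blockB n s i) = {x}) with hI
  have hsub : range s \ I ⊆ (V.erase x).image (fun y => y.val / s) := by
    intro i hi
    rw [Finset.mem_sdiff] at hi
    obtain ⟨his, hiI⟩ := hi
    have hne : V ∩ insert x (blockB n s i) ≠ {x} := by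
      intro h
      apply hiI
      rw [hI, Finset.mem_filter]
      exact ⟨his, h⟩
    -- there is another vertex
    have : ∃ y ∈ V ∩ insert x (blockB n s i), y ≠ x := by
      by_contra hcon
      have hcon : ∀ y ∈ V ∩ insert x (blockB n s i), y = x := by
        intro y hy
        by_contra hyx
        exact hcon ⟨y, hy, hyx⟩
      apply hne
      ext y
      simp only [Finset.mem_singleton]
      constructor
      · exact hcon y
      · rintro rfl
        simp [hxV]
    obtain ⟨y, hy, hyx⟩ := this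
    rw [Finset.mem_inter, Finset.mem_insert] at hy
    have hyB : y ∈ blockB n s i := by
      rcases hy.2 with h | h
      · exact absurd h hyx
      · exact h
    rw [Finset.mem_image]
    refine ⟨y, Finset.mem_erase.2 ⟨hyx, hy.1⟩, ?_⟩
    simpa [blockB] using hyB
  have h1 : (range s \ I).card ≤ (V.erase x).card :=
    (Finset.card_le_card hsub).trans Finset.card_image_le
  have h2 : (V.erase x).card = V.card - 1 := Finset.card_erase_of_mem hxV
  have h3 : (range s \ I).card = s - I.card := by
    rw [Finset.card_sdiff_of_subset (Finset.filter_subset _ _)]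
    simp [hI]
  omega

/-- L3a: averaging over `s` disjoint blocks of size `s` (`s * s ≤ n`). -/
theorem star_mass (hp0 : 0 < p) (hp1 : p < 1) {f : (HyperedgeSlot n r → Bool) → Bool}
    (hf : IsSymmetric f) {s : ℕ} (hs0 : 0 < s) (hs : s * s ≤ n) (x : Fin n) (d : ℕ) :
    ∑ T ∈ univ.filter (fun T : Finset (HyperedgeSlot n r) =>
          x ∈ vert T ∧ degT T x ≤ d ∧ 2 * ((vert T).card - 1) ≤ s),
        coeff p (bv f) T ^ 2
      ≤ 2 * ((2 / sig p) ^ d * (sig p ^ 2 / Real.sqrt s) * ∑ e ∈ star x, piv p f e) := by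
  classical
  have hσ : 0 < sig p := sig_pos hp0 hp1
  set W : ℝ := (2 / sig p) ^ d * (sig p ^ 2 / Real.sqrt s) * ∑ e ∈ star x, piv p f e with hW
  have hPi : 0 ≤ ∑ e ∈ star (r := r) x, piv p f e :=
    Finset.sum_nonneg (fun e _ => ex_nonneg hp0 hp1 (fun x => ind_nonneg _))
  have hsR : (0 : ℝ) < s := by exact_mod_cast hs0
  -- bound for each block
  have hblock : ∀ i ∈ range s,
      ∑ T ∈ univ.filter (fun T : Finset (HyperedgeSlot n r) =>
          vert T ∩ insert x (blockB n s i) = {x} ∧ degT T x ≤ d), coeff p (bv f) T ^ 2 ≤ W := by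
    intro i hi
    have hi' := Finset.mem_range.1 hi
    refine le_trans (vertex_bound hp0 hp1 hf (insert x (blockB n s i)) (Finset.mem_insert_self _ _) d) ?_
    rw [hW]
    apply mul_le_mul_of_nonneg_right _ hPi
    apply mul_le_mul_of_nonneg_left _ (by positivity)
    apply div_le_div_of_nonneg_left (by positivity) (Real.sqrt_pos.2 hsR)
    apply Real.sqrt_le_sqrt
    have h1 : s ≤ (blockB n s i).card := card_blockB hs0 hs hi'
    have h2 : (blockB n s i).card ≤ (insert x (blockB n s i)).card :=
      Finset.card_le_card (Finset.subset_insert _ _)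
    exact_mod_cast h1.trans h2
  have hsum : ∑ i ∈ range s, ∑ T ∈ univ.filter (fun T : Finset (HyperedgeSlot n r) =>
      vert T ∩ insert x (blockB n s i) = {x} ∧ degT T x ≤ d), coeff p (bv f) T ^ 2 ≤ s * W := by
    calc _ ≤ ∑ i ∈ range s, W := Finset.sum_le_sum hblock
      _ = s * W := by simp
  -- double counting
  set 𝒯 := univ.filter (fun T : Finset (HyperedgeSlot n r) =>
          x ∈ vert T ∧ degT T x ≤ d ∧ 2 * ((vert T).card - 1) ≤ s) with h𝒯
  have hdouble : (s : ℝ) / 2 * ∑ T ∈ 𝒯, coeff p (bv f) T ^ 2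
      ≤ ∑ i ∈ range s, ∑ T ∈ univ.filter (fun T : Finset (HyperedgeSlot n r) =>
        vert T ∩ insert x (blockB n s i) = {x} ∧ degT T x ≤ d), coeff p (bv f) T ^ 2 := by
    have hswap : ∑ i ∈ range s, ∑ T ∈ univ.filter (fun T : Finset (HyperedgeSlot n r) =>
        vert T ∩ insert x (blockB n s i) = {x} ∧ degT T x ≤ d), coeff p (bv f) T ^ 2
        = ∑ T : Finset (HyperedgeSlot n r), ∑ i ∈ range s,
          if vert T ∩ insert x (blockB n s i) = {x} ∧ degT T x ≤ d then coeff p (bv f) T ^ 2 else 0 := by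
      simp only [Finset.sum_filter]
      rw [Finset.sum_comm]
    rw [hswap, Finset.mul_sum]
    calc ∑ T ∈ 𝒯, (s : ℝ) / 2 * coeff p (bv f) T ^ 2
        ≤ ∑ T ∈ 𝒯, ∑ i ∈ range s,
          (if vert T ∩ insert x (blockB n s i) = {x} ∧ degT T x ≤ d then coeff p (bv f) T ^ 2 else 0) := by
          apply Finset.sum_le_sum
          intro T hT
          have hT' := (Finset.mem_filter.1 hT).2
          have hgood := card_good_blocks hs0 (vert T) x hT'.1 hT'.2.2
          have hsimp : ∑ i ∈ range s,
              (if vert T ∩ insert x (blockB n s i) = {x} ∧ degT T x ≤ d then coeff p (bv f) T ^ 2 else 0)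
              = (((range s).filter (fun i => vert T ∩ insert x (blockB n s i) = {x})).card : ℝ)
                * coeff p (bv f) T ^ 2 := by
            have : ∀ i ∈ range s, (if vert T ∩ insert x (blockB n s i) = {x} ∧ degT T x ≤ d
                  then coeff p (bv f) T ^ 2 else 0)
                = (if vert T ∩ insert x (blockB n s i) = {x} then coeff p (bv f) T ^ 2 else 0) := by
              intro i _
              simp [hT'.2.1]
            rw [Finset.sum_congr rfl this, ← Finset.sum_filter]
            simp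
          rw [hsimp]
          apply mul_le_mul_of_nonneg_right _ (sq_nonneg _)
          have h2 : (s : ℝ) ≤ 2 * (((range s).filter
              (fun i => vert T ∩ insert x (blockB n s i) = {x})).card : ℝ) := by exact_mod_cast hgood
          linarith
      _ ≤ ∑ T : Finset (HyperedgeSlot n r), ∑ i ∈ range s,
          (if vert T ∩ insert x (blockB n s i) = {x} ∧ degT T x ≤ d then coeff p (bv f) T ^ 2 else 0) := by
          apply Finset.sum_le_sum_of_subset_of_nonneg (Finset.subset_univ 𝒯)
          intro T _ _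
          apply Finset.sum_nonneg
          intro i _
          split_ifs
          · exact sq_nonneg _
          · exact le_rfl
  have : (s : ℝ) / 2 * ∑ T ∈ 𝒯, coeff p (bv f) T ^ 2 ≤ s * W := hdouble.trans hsum
  have h2 : (s : ℝ) * (∑ T ∈ 𝒯, coeff p (bv f) T ^ 2) ≤ s * (2 * W) := by nlinarith
  exact le_of_mul_le_mul_left h2 hsR

lemma sum_star (g : HyperedgeSlot n r → ℝ) :
    ∑ x : Fin n, ∑ e ∈ star (r := r) x, g e = r * ∑ e, g e := by
  classical
  unfold star
  simp only [Finset.sum_filter]
  rw [Finset.sum_comm, Finset.mul_sum]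
  apply Finset.sum_congr rfl
  intro e _
  have : ∑ x : Fin n, (if x ∈ e.1 then g e else 0) = (e.1.card : ℝ) * g e := by
    rw [← Finset.sum_filter]
    simp
  rw [this, e.2]

lemma card_vert_le (T : Finset (HyperedgeSlot n r)) : (vert T).card ≤ r * T.card := by
  unfold vert
  have := Finset.card_biUnion_le_card_mul T (fun e => e.1) r (fun e _ => e.2.le)
  rw [Nat.mul_comm]
  exact this

/-- Double counting of incidences. -/
lemma sum_degT (T : Finset (HyperedgeSlot n r)) :
    ∑ x ∈ vert T, degT T x = r * T.card := by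
  classical
  unfold degT
  simp only [Finset.card_filter]
  rw [Finset.sum_comm]
  have : ∀ e ∈ T, ∑ x ∈ vert T, (if x ∈ e.1 then 1 else 0) = r := by
    intro e he
    rw [← Finset.card_filter]
    have : (vert T).filter (fun x => x ∈ e.1) = e.1 := by
      ext y
      simp only [Finset.mem_filter, vert, Finset.mem_biUnion]
      constructor
      · exact fun h => h.2
      · exact fun h => ⟨⟨e, he, h⟩, h⟩
    rw [this, e.2]
  rw [Finset.sum_congr rfl this]
  simp [Nat.mul_comm]

/-- A vertex lies in at most `C(v-1, r-1)` edges. -/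
lemma degT_le (hr : 1 ≤ r) (T : Finset (HyperedgeSlot n r)) (x : Fin n) (hx : x ∈ vert T) :
    degT T x ≤ ((vert T).card - 1) ^ (r - 1) := by
  classical
  unfold degT
  have h1 : (T.filter (fun e => x ∈ e.1)).card
      ≤ (((vert T).erase x).powersetCard (r - 1)).card := by
    apply Finset.card_le_card_of_injOn (fun e => e.1.erase x)
    · intro e he
      have he' := Finset.mem_filter.1 (Finset.mem_coe.1 he)
      apply Finset.mem_coe.2
      rw [Finset.mem_powersetCard]
      constructor
      · intro y hy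
        rw [Finset.mem_erase] at hy ⊢
        refine ⟨hy.1, ?_⟩
        simp only [vert, Finset.mem_biUnion]
        exact ⟨e, he'.1, hy.2⟩
      · rw [Finset.card_erase_of_mem he'.2, e.2]
    · intro e he e' he' h
      have he1 := (Finset.mem_filter.1 (Finset.mem_coe.1 he)).2
      have he2 := (Finset.mem_filter.1 (Finset.mem_coe.1 he')).2
      apply Subtype.ext
      have h' : e.1.erase x = e'.1.erase x := h
      calc e.1 = insert x (e.1.erase x) := (Finset.insert_erase he1).symm
        _ = insert x (e'.1.erase x) := by rw [h']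
        _ = e'.1 := Finset.insert_erase he2
  rw [Finset.card_powersetCard, Finset.card_erase_of_mem hx] at h1
  exact h1.trans (Nat.choose_le_pow _ _)

/-- If all vertices have degree at least `d+1`, then `T` is large. -/
lemma card_ge_of_deg (hr : 2 ≤ r) (T : Finset (HyperedgeSlot n r)) (hT : T.Nonempty) (d : ℕ)
    (hdeg : ∀ x ∈ vert T, d + 1 ≤ degT T x) :
    ((d : ℝ) + 1) ^ ((r : ℝ) / ((r : ℝ) - 1)) ≤ r * (T.card : ℝ) := by
  classical
  obtain ⟨e, he⟩ := hT
  have hre : 0 < e.1.card := by rw [e.2]; omega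
  obtain ⟨x, hx⟩ := Finset.card_pos.1 hre
  have hxV : x ∈ vert T := by
    simp only [vert, Finset.mem_biUnion]
    exact ⟨e, he, hx⟩
  set v := (vert T).card with hv
  have hv0 : 0 < v := Finset.card_pos.2 ⟨x, hxV⟩
  have h1 : d + 1 ≤ v ^ (r - 1) := by
    calc d + 1 ≤ degT T x := hdeg x hxV
      _ ≤ (v - 1) ^ (r - 1) := degT_le (by omega) T x hxV
      _ ≤ v ^ (r - 1) := Nat.pow_le_pow_left (by omega) _
  have h2 : v * (d + 1) ≤ r * T.card := by
    rw [← sum_degT]
    calc v * (d + 1) = ∑ _x ∈ vert T, (d + 1) := by simp [hv]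
      _ ≤ ∑ x ∈ vert T, degT T x := Finset.sum_le_sum hdeg
  have hr1 : (0 : ℝ) < (r : ℝ) - 1 := by
    have : (2 : ℝ) ≤ r := by exact_mod_cast hr
    linarith
  have hd1 : (0 : ℝ) < (d : ℝ) + 1 := by positivity
  have hsplit : (r : ℝ) / ((r : ℝ) - 1) = 1 / ((r : ℝ) - 1) + 1 := by
    field_simp
    ring
  rw [hsplit, Real.rpow_add hd1, Real.rpow_one]
  have h3 : ((d : ℝ) + 1) ^ (1 / ((r : ℝ) - 1)) ≤ v := by
    have h4 : ((d : ℝ) + 1) ≤ (v : ℝ) ^ (r - 1) := by exact_mod_cast h1
    have h5 : ((v : ℝ) ^ (r - 1)) ^ (1 / ((r : ℝ) - 1)) = v := by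
      rw [← Real.rpow_natCast, ← Real.rpow_mul (by positivity)]
      have : ((r - 1 : ℕ) : ℝ) = (r : ℝ) - 1 := by
        rw [Nat.cast_sub (by omega)]
        simp
      rw [this, mul_one_div_cancel hr1.ne', Real.rpow_one]
    calc ((d : ℝ) + 1) ^ (1 / ((r : ℝ) - 1))
        ≤ ((v : ℝ) ^ (r - 1)) ^ (1 / ((r : ℝ) - 1)) :=
          Real.rpow_le_rpow hd1.le h4 (by positivity)
      _ = v := h5
  calc ((d : ℝ) + 1) ^ (1 / ((r : ℝ) - 1)) * ((d : ℝ) + 1)
      ≤ (v : ℝ) * ((d : ℝ) + 1) := mul_le_mul_of_nonneg_right h3 hd1.le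
    _ ≤ r * (T.card : ℝ) := by exact_mod_cast h2

/-- L3b: partition of the nonempty `T` into (a) small vertex support with a low-degree vertex,
(b) large vertex support, (c) all degrees ≥ `d+1`. -/
theorem master_L (hp0 : 0 < p) (hp1 : p < 1) (hr : 2 ≤ r) {f : (HyperedgeSlot n r → Bool) → Bool}
    (hf : IsSymmetric f) {s : ℕ} (hs0 : 0 < s) (hs : s * s ≤ n) (d : ℕ) :
    ex p (bv f) * (1 - ex p (bv f))
      ≤ sig p ^ 2 * totInf p f * r *
        (2 * (2 / sig p) ^ d / Real.sqrt s + 2 / s
          + 1 / ((d : ℝ) + 1) ^ ((r : ℝ) / ((r : ℝ) - 1))) := by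
  classical
  have hσ : 0 < sig p := sig_pos hp0 hp1
  have hsR : (0 : ℝ) < s := by exact_mod_cast hs0
  have hrR : (0 : ℝ) < r := by
    have : (2 : ℝ) ≤ r := by exact_mod_cast hr
    linarith
  have hd1 : (0 : ℝ) < ((d : ℝ) + 1) ^ ((r : ℝ) / ((r : ℝ) - 1)) := by positivity
  set c : Finset (HyperedgeSlot n r) → ℝ := fun T => coeff p (bv f) T ^ 2 with hc
  have hc0 : ∀ T, 0 ≤ c T := fun T => sq_nonneg _
  set 𝒯 : Fin n → Finset (Finset (HyperedgeSlot n r)) := fun x => univ.filter
    (fun T : Finset (HyperedgeSlot n r) =>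
          x ∈ vert T ∧ degT T x ≤ d ∧ 2 * ((vert T).card - 1) ≤ s) with h𝒯
  -- pointwise bound
  have hpt : ∀ T ∈ univ.filter (fun T : Finset (HyperedgeSlot n r) => T.Nonempty),
      c T ≤ ∑ x : Fin n, (if T ∈ 𝒯 x then c T else 0)
        + (2 * r / s) * ((T.card : ℝ) * c T)
        + (r / ((d : ℝ) + 1) ^ ((r : ℝ) / ((r : ℝ) - 1))) * ((T.card : ℝ) * c T) := by
    intro T hT
    have hTne : T.Nonempty := (Finset.mem_filter.1 hT).2
    have h1 : 0 ≤ ∑ x : Fin n, (if T ∈ 𝒯 x then c T else 0) :=
      Finset.sum_nonneg (fun x _ => by split_ifs; exact hc0 T; exact le_rfl)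
    have h2 : 0 ≤ (2 * r / s) * ((T.card : ℝ) * c T) := by
      have := hc0 T
      positivity
    have h3 : 0 ≤ (r / ((d : ℝ) + 1) ^ ((r : ℝ) / ((r : ℝ) - 1))) * ((T.card : ℝ) * c T) := by
      have := hc0 T
      positivity
    by_cases hb : 2 * ((vert T).card - 1) ≤ s
    · by_cases ha : ∃ x ∈ vert T, degT T x ≤ d
      · obtain ⟨x, hx, hxd⟩ := ha
        have hmem : T ∈ 𝒯 x := by
          simp only [h𝒯, Finset.mem_filter, Finset.mem_univ, true_and]
          exact ⟨hx, hxd, hb⟩
        have h4 : c T ≤ ∑ x : Fin n, (if T ∈ 𝒯 x then c T else 0) := by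
          have := Finset.single_le_sum (f := fun x : Fin n => if T ∈ 𝒯 x then c T else 0)
            (fun x _ => by
              show 0 ≤ (if T ∈ 𝒯 x then c T else 0)
              split_ifs
              · exact hc0 T
              · exact le_rfl) (Finset.mem_univ x)
          simpa [hmem] using this
        linarith
      · have hdeg : ∀ x ∈ vert T, d + 1 ≤ degT T x := by
          intro x hx
          by_contra hcon
          exact ha ⟨x, hx, by omega⟩
        have hbig := card_ge_of_deg hr T hTne d hdeg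
        have h4 : c T ≤ (r / ((d : ℝ) + 1) ^ ((r : ℝ) / ((r : ℝ) - 1))) * ((T.card : ℝ) * c T) := by
          rw [← mul_assoc]
          have h5 : 1 ≤ (r / ((d : ℝ) + 1) ^ ((r : ℝ) / ((r : ℝ) - 1))) * (T.card : ℝ) := by
            rw [div_mul_eq_mul_div, le_div_iff₀ hd1]
            linarith
          have := mul_le_mul_of_nonneg_right h5 (hc0 T)
          linarith
        linarith
    · have h4 : c T ≤ (2 * r / s) * ((T.card : ℝ) * c T) := by
        rw [← mul_assoc]
        have h5 : 1 ≤ (2 * r / s) * (T.card : ℝ) := by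
          rw [div_mul_eq_mul_div, le_div_iff₀ hsR]
          have h6 := card_vert_le T
          have h7 : s ≤ 2 * (r * T.card) := by omega
          have h8 : (s : ℝ) ≤ 2 * (r * (T.card : ℝ)) := by exact_mod_cast h7
          linarith
        have := mul_le_mul_of_nonneg_right h5 (hc0 T)
        linarith
      linarith
  -- sum up
  rw [← var_eq hp0 hp1 f]
  set I := totInf p f with hI
  have hcard : ∑ T : Finset (HyperedgeSlot n r), (T.card : ℝ) * c T = sig p ^ 2 * I :=
    sum_card_coeff hp0 hp1 f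
  have hI0 : 0 ≤ sig p ^ 2 * I := by
    rw [← hcard]
    exact Finset.sum_nonneg (fun T _ => mul_nonneg (by positivity) (hc0 T))
  have hsum1 : ∑ T ∈ univ.filter (fun T : Finset (HyperedgeSlot n r) => T.Nonempty),
      ((T.card : ℝ) * c T) ≤ sig p ^ 2 * I := by
    rw [← hcard]
    exact Finset.sum_le_sum_of_subset_of_nonneg (Finset.subset_univ _)
      (fun T _ _ => mul_nonneg (by positivity) (hc0 T))
  have hA : ∑ T ∈ univ.filter (fun T : Finset (HyperedgeSlot n r) => T.Nonempty),
      ∑ x : Fin n, (if T ∈ 𝒯 x then c T else 0)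
      ≤ r * I * (2 * ((2 / sig p) ^ d * (sig p ^ 2 / Real.sqrt s))) := by
    calc ∑ T ∈ univ.filter (fun T : Finset (HyperedgeSlot n r) => T.Nonempty),
        ∑ x : Fin n, (if T ∈ 𝒯 x then c T else 0)
        ≤ ∑ T : Finset (HyperedgeSlot n r), ∑ x : Fin n, (if T ∈ 𝒯 x then c T else 0) :=
          Finset.sum_le_sum_of_subset_of_nonneg (Finset.subset_univ _)
            (fun T _ _ => Finset.sum_nonneg (fun x _ => by
              split_ifs
              · exact hc0 T
              · exact le_rfl))
      _ = ∑ x : Fin n, ∑ T ∈ 𝒯 x, c T := by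
          rw [Finset.sum_comm]
          apply Finset.sum_congr rfl
          intro x _
          rw [Finset.sum_ite_mem]
          simp
      _ ≤ ∑ x : Fin n, (2 * ((2 / sig p) ^ d * (sig p ^ 2 / Real.sqrt s))) *
            ∑ e ∈ star (r := r) x, piv p f e := by
          apply Finset.sum_le_sum
          intro x _
          have := star_mass hp0 hp1 hf hs0 hs x d
          calc ∑ T ∈ 𝒯 x, c T ≤ _ := this
            _ = _ := by ring
      _ = r * I * (2 * ((2 / sig p) ^ d * (sig p ^ 2 / Real.sqrt s))) := by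
          rw [← Finset.mul_sum, sum_star]
          simp only [hI, totInf]
          ring
  have hB : ∑ T ∈ univ.filter (fun T : Finset (HyperedgeSlot n r) => T.Nonempty),
      (2 * r / s) * ((T.card : ℝ) * c T) ≤ (2 * r / s) * (sig p ^ 2 * I) := by
    rw [← Finset.mul_sum]
    exact mul_le_mul_of_nonneg_left hsum1 (by positivity)
  have hC : ∑ T ∈ univ.filter (fun T : Finset (HyperedgeSlot n r) => T.Nonempty),
      (r / ((d : ℝ) + 1) ^ ((r : ℝ) / ((r : ℝ) - 1))) * ((T.card : ℝ) * c T)
      ≤ (r / ((d : ℝ) + 1) ^ ((r : ℝ) / ((r : ℝ) - 1))) * (sig p ^ 2 * I) := by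
    rw [← Finset.mul_sum]
    exact mul_le_mul_of_nonneg_left hsum1 (by positivity)
  calc ∑ S ∈ univ.filter (fun S : Finset (HyperedgeSlot n r) => S.Nonempty), coeff p (bv f) S ^ 2
      ≤ ∑ T ∈ univ.filter (fun T : Finset (HyperedgeSlot n r) => T.Nonempty),
        (∑ x : Fin n, (if T ∈ 𝒯 x then c T else 0)
        + (2 * r / s) * ((T.card : ℝ) * c T)
        + (r / ((d : ℝ) + 1) ^ ((r : ℝ) / ((r : ℝ) - 1))) * ((T.card : ℝ) * c T)) :=
        Finset.sum_le_sum hpt
    _ ≤ r * I * (2 * ((2 / sig p) ^ d * (sig p ^ 2 / Real.sqrt s)))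
        + (2 * r / s) * (sig p ^ 2 * I)
        + (r / ((d : ℝ) + 1) ^ ((r : ℝ) / ((r : ℝ) - 1))) * (sig p ^ 2 * I) := by
        rw [Finset.sum_add_distrib, Finset.sum_add_distrib]
        linarith
    _ = sig p ^ 2 * I * r *
        (2 * (2 / sig p) ^ d / Real.sqrt s + 2 / s
          + 1 / ((d : ℝ) + 1) ^ ((r : ℝ) / ((r : ℝ) - 1))) := by
        ring

/-- L4 assembled. -/
theorem influence_L (hp0 : 0 < p) (hp1 : p < 1) (hr : 2 ≤ r) (hrn : r ≤ n)
    {f : (HyperedgeSlot n r → Bool) → Bool} (hf : IsSymmetric f) :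
    ex p (bv f) * (1 - ex p (bv f))
      ≤ (300 * r : ℝ) / Real.log n ^ ((r : ℝ) / ((r : ℝ) - 1)) * totInf p f :=
  influence_L_of_master hp0 hp1 hr hrn (fun s d hs0 hs => master_L hp0 hp1 hr hf hs0 hs d)

end Crest.Agent.BK
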